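import Vale.Agent.P181.DU.Defs
import Vale.Agent.P181.DU.Shift

set_option autoImplicit false

/-!
# P181, DX: every `b > a`

One move of the flow `FlowX` (dissolve one letter `y > a`, then shift all other letters `> θ` by
`b - a`) reaches exactly `a + 1` letters, all of size `≤ a`, when `b ≤ a + X`.
-/

open MvPolynomial

namespace Vale.Agent.P181.DX

open Vale.Agent.P181.T4 (HW ex low)
open Vale.Agent.P181.H280 (plethMult)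
open Vale.Agent.P181.H463 (gt)
open Vale.Agent.P181.PL (dn)
open Vale.Agent.P181.DG Vale.Agent.P181.DU.S317

open scoped Classical in
/-- **(X7)** the flow for `a < b ≤ a + X`. -/
def FlowX : Prop := ∀ (g : Multiset ℕ → ℕ → ℕ) (a b J S K X w : ℕ), DisG S g → ShG g → 2 ≤ K →
  4 ≤ S → 5 * (K + 1) ≤ X → 32 ≤ X → X ≤ S → w * X ^ 2 ≤ S ^ 2 → 4 * ((w + 1) * (a + 2) ^ 2) ≤ X ^ K →
  (2 * K + 5) * S ≤ J → J + 1 ≤ a → w * X ^ 4 ≤ S * a → w * X ^ 3 ≤ a ^ 2 → 100 * (K * S) ≤ a →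
  a + 1 ≤ b → b ≤ a + X →
  3 * ∑ p ∈ (KT w S ×ˢ Finset.range (a + 2)).filter (BadW a b J), g p.1 p.2 ≤
    ∑ p ∈ (KT w S ×ˢ Finset.range (a + 2)).filter (GoodW a b), g p.1 p.2

/-- **(X8)** the assembly: `DU.AsmU` with `a + 1 ≤ b` and `(Z + 1) * X ^ 3 ≤ a` instead of
`a + 3 * K + 2 ≤ b`. -/
def AsmX : Prop := ∀ (a b n R X Z K w a0 b0 : ℕ) (lam nu : Fin n → ℕ), Antitone lam →
  ∑ i, lam i = a * b → ((∀ i, 0 < lam i) ∨ n ≤ Z * X ^ 2) → 1 ≤ R → R + 1 < n →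
  w = dn lam 1 → Z ^ 2 ≤ w → w < (Z + 1) ^ 2 →
  1 ≤ K → 16 * K + 16 ≤ X → X ≤ Z → 4 * w ≤ X ^ K → 100 * K * ((Z + 1) * X) ≤ a →
  a + 1 ≤ b → (Z + 1) * X ^ 3 ≤ a → Z * X ^ 2 + 2 ≤ a → 1 ≤ a0 → a0 < a →
  a + a0 * (a0 + 2) ≤ w → 3 * (b0 + 1) ≤ a →
  (∀ i : Fin n, 1 ≤ (i : ℕ) → nu i ≤ lam i) →
  (∀ i : Fin n, 1 ≤ (i : ℕ) → ex lam ((i : ℕ) + 1) ≤ nu i) → w = dn nu 1 + a →
  (n ≤ Z * X ^ 2 → 2 * ((w + 1) ^ ((R + 1) * (Z * X ^ 2)) *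
    gt (n - R) (Z * X ^ 2 + 1) (low R nu)) ≤ plethMult b0 a0 n nu) →
  plethMult a b n lam ≤ plethMult b a n lam

/-- **(X9)** the theorem: EVERY `b ≥ a`. -/
def DiagX : Prop := ∃ (C : ℝ) (c : ℕ), 0 < C ∧ ∀ a b : ℕ, a ≤ b →
  ∀ (n : ℕ) (lam : Fin n → ℕ),
  (dn lam 1 ≤ b ∨ 2 * (a : ℝ) + a / (1 + Real.log a) ^ 7 ≤ dn lam 1) →
  C * (1 + Real.log a) ^ c * (dn lam 1 : ℝ) ≤ (a : ℝ) ^ 2 →
  (C * (1 + Real.log a) ^ c * (dn lam 1 : ℝ) ≤ (dn lam 2 : ℝ) ^ 2 ∨ a + dn lam 2 ≤ b + 1) →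
  plethMult a b n lam ≤ plethMult b a n lam

end Vale.Agent.P181.DX
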