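import Vale.Agent.P181.DX.One

set_option autoImplicit false

/-!
# P181, DX (X7): the flow for `a < b ≤ a + X`
-/

namespace Vale.Agent.P181.DX

open Vale.Agent.P181.DG Vale.Agent.P181.DU.S317
open Vale.Agent.P181.SZC1 (card_values)
open Vale.Agent.P181.DG7 (mem_KT)

lemma cancel_sum {M₁ M₂ c A G : ℕ} (h1 : M₁ * A ≤ M₂ * G) (h2 : c * M₂ ≤ M₁) (h3 : 0 < M₂) :
    c * A ≤ G := by
  have h4 : M₂ * (c * A) ≤ M₂ * G := by
    calc M₂ * (c * A) = (c * M₂) * A := by ring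
      _ ≤ M₁ * A := Nat.mul_le_mul_right _ h2
      _ ≤ M₂ * G := h1
  exact Nat.le_of_mul_le_mul_left h4 h3

/-- the numbers -/
structure Nums (a S K X w i h L q s P : ℕ) : Prop where
  hi : 1 ≤ i
  hiX : i ≤ X
  hXS : X ≤ S
  hS4 : 4 ≤ S
  hK : 2 ≤ K
  hX32 : 32 ≤ X
  ha200 : 200 * S ≤ a
  hKS : 100 * (K * S) ≤ a
  hh : h = a / 2
  hL : L = a / 4
  hsS : s * (K + 1) ≤ S
  hP1 : 1 ≤ P
  hq1 : 1 ≤ q
  hsP : X * P + 4 * P + (K + 1) ≤ s
  hXP1 : 32 * P ≤ X * P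
  hXP2 : 5 * (K + 1) ≤ X * P
  hqX : 64 * (q * X) ≤ a
  hqs : 32 * ((K + 2) * (q * X)) ≤ s
  hcP : ∀ k : Multiset ℕ, k.sum ≤ w → (k.toFinset.filter (S ≤ ·)).card ≤ P
  hcq : ∀ k : Multiset ℕ, k.sum ≤ w → (k.toFinset.filter (L ≤ ·)).card ≤ q
  hE : ∀ (θ : ℕ) (k : Multiset ℕ), h < θ → k.sum ≤ w → 2 * S + i * nb θ k + i ≤ h

lemma num_sP {S K X w P s : ℕ} (hKX : 5 * (K + 1) ≤ X) (hX32 : 32 ≤ X) (hS : 1 ≤ S)
    (hwS : w * X ^ 2 ≤ S ^ 2) (hP1 : 1 ≤ P) (hPS : P * S ≤ w) (hs : s = S / (K + 1)) :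
    X * P + 4 * P + (K + 1) ≤ s := by
  have hXP : P * X ^ 2 ≤ S := by
    have h1 : P * X ^ 2 * S ≤ S * S := by
      calc P * X ^ 2 * S = P * S * X ^ 2 := by ring
        _ ≤ w * X ^ 2 := Nat.mul_le_mul_right _ hPS
        _ ≤ S ^ 2 := hwS
        _ = S * S := by ring
    exact Nat.le_of_mul_le_mul_right h1 (by omega)
  have hXP1 : 32 * P ≤ X * P := Nat.mul_le_mul_right _ hX32
  have hXP2 : X * 1 ≤ X * P := Nat.mul_le_mul_left _ hP1
  rw [hs, Nat.le_div_iff_mul_le (by omega)]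
  have h1 : 5 * ((X * P + 4 * P + (K + 1)) * (K + 1)) ≤ 5 * S := by
    calc 5 * ((X * P + 4 * P + (K + 1)) * (K + 1))
        = (X * P + 4 * P + (K + 1)) * (5 * (K + 1)) := by ring
      _ ≤ (X * P + 4 * P + (K + 1)) * X := Nat.mul_le_mul_left _ hKX
      _ ≤ (5 * (X * P)) * X := Nat.mul_le_mul_right _ (by omega)
      _ = 5 * (P * X ^ 2) := by ring
      _ ≤ 5 * S := Nat.mul_le_mul_left _ hXP
  omega

lemma num_X3 {K X : ℕ} (hKX : 5 * (K + 1) ≤ X) (hX32 : 32 ≤ X) :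
    160 * ((K + 1) * (K + 2)) ≤ X ^ 3 := by
  calc 160 * ((K + 1) * (K + 2)) ≤ 160 * ((K + 1) * (5 * (K + 1))) :=
        Nat.mul_le_mul_left _ (Nat.mul_le_mul_left _ (by omega))
    _ = 32 * ((5 * (K + 1)) * (5 * (K + 1))) := by ring
    _ ≤ X * (X * X) := Nat.mul_le_mul hX32 (Nat.mul_le_mul hKX hKX)
    _ = X ^ 3 := by ring

lemma num_wX {a w X : ℕ} (hX32 : 32 ≤ X) (hwX3 : w * X ^ 3 ≤ a ^ 2) :
    1024 * (w * X) ≤ a * a := by
  calc 1024 * (w * X) = (32 * 32) * (w * X) := by norm_num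
    _ ≤ (X * X) * (w * X) := Nat.mul_le_mul_right _ (Nat.mul_le_mul hX32 hX32)
    _ = w * X ^ 3 := by ring
    _ ≤ a ^ 2 := hwX3
    _ = a * a := sq a

lemma num_qX {a w X q L : ℕ} (hwX1 : 1024 * (w * X) ≤ a * a) (ha5 : a ≤ 5 * L) (ha : 0 < a)
    (hqL : q * L ≤ w) : 64 * (q * X) ≤ a := by
  by_contra hcon
  have h1 : a * a < (64 * (q * X)) * a := Nat.mul_lt_mul_of_pos_right (by omega) ha
  have h2 : (64 * (q * X)) * a ≤ (64 * (q * X)) * (5 * L) := Nat.mul_le_mul_left _ ha5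
  have h3 : (64 * (q * X)) * (5 * L) = 320 * (q * L * X) := by ring
  have h4 : q * L * X ≤ w * X := Nat.mul_le_mul_right _ hqL
  omega

lemma num_nb {a w X h : ℕ} (hwX1 : 1024 * (w * X) ≤ a * a) (ha : 0 < a) (hh : a ≤ 2 * h + 1)
    (θ : ℕ) (k : Multiset ℕ) (hθ : h < θ) (hk : k.sum ≤ w) : 512 * (X * nb θ k) ≤ a := by
  by_contra hcon
  have h1 : a * a < (512 * (X * nb θ k)) * a := Nat.mul_lt_mul_of_pos_right (by omega) ha
  have h2 : (512 * (X * nb θ k)) * a ≤ (512 * (X * nb θ k)) * (2 * θ) :=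
    Nat.mul_le_mul_left _ (by omega)
  have h3 : (512 * (X * nb θ k)) * (2 * θ) = 1024 * (nb θ k * θ * X) := by ring
  have h4 : nb θ k * θ * X ≤ w * X := Nat.mul_le_mul_right _ ((nb_mul θ k).trans hk)
  omega

lemma num_qs {a S w X q L K s : ℕ} (hKX : 5 * (K + 1) ≤ X) (hX32 : 32 ≤ X)
    (hwX4 : w * X ^ 4 ≤ S * a) (ha5 : a ≤ 5 * L) (ha : 0 < a) (hqL : q * L ≤ w)
    (hs : s = S / (K + 1)) : 32 * ((K + 2) * (q * X)) ≤ s := by
  rw [hs, Nat.le_div_iff_mul_le (by omega)]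
  have h1 : (32 * ((K + 2) * (q * X)) * (K + 1)) * a ≤ S * a := by
    calc (32 * ((K + 2) * (q * X)) * (K + 1)) * a
        ≤ (32 * ((K + 2) * (q * X)) * (K + 1)) * (5 * L) := Nat.mul_le_mul_left _ ha5
      _ = (160 * ((K + 1) * (K + 2))) * (q * L * X) := by ring
      _ ≤ X ^ 3 * (w * X) := Nat.mul_le_mul (num_X3 hKX hX32) (Nat.mul_le_mul_right _ hqL)
      _ = w * X ^ 4 := by ring
      _ ≤ S * a := hwX4
  exact Nat.le_of_mul_le_mul_right h1 ha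

lemma nums {a S K X w i : ℕ} (hi : 1 ≤ i) (hiX : i ≤ X) (hK : 2 ≤ K) (hS4 : 4 ≤ S)
    (hKX : 5 * (K + 1) ≤ X) (hX32 : 32 ≤ X) (hXS : X ≤ S) (hwS : w * X ^ 2 ≤ S ^ 2)
    (hwX4 : w * X ^ 4 ≤ S * a) (hwX3 : w * X ^ 3 ≤ a ^ 2) (hKS : 100 * (K * S) ≤ a)
    (hwa : a < w) :
    Nums a S K X w i (a / 2) (a / 4) (w / (a / 4)) (S / (K + 1)) (w / S) := by
  have hKS2 : 2 * S ≤ K * S := Nat.mul_le_mul_right _ hK
  have ha200 : 200 * S ≤ a := by omega
  have hLpos : 0 < a / 4 := by omega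
  have hP1 : 1 ≤ w / S := by
    rw [Nat.le_div_iff_mul_le (by omega)]
    omega
  have hq1 : 1 ≤ w / (a / 4) := by
    rw [Nat.le_div_iff_mul_le hLpos]
    omega
  have hPS : w / S * S ≤ w := Nat.div_mul_le_self _ _
  have hqL : w / (a / 4) * (a / 4) ≤ w := Nat.div_mul_le_self _ _
  have hwX1 := num_wX hX32 hwX3
  have ha5 : a ≤ 5 * (a / 4) := by omega
  have hXP2 : X * 1 ≤ X * (w / S) := Nat.mul_le_mul_left _ hP1
  refine ⟨hi, hiX, hXS, hS4, hK, hX32, ha200, hKS, rfl, rfl, Nat.div_mul_le_self _ _, hP1, hq1,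
    num_sP hKX hX32 (by omega) hwS hP1 hPS rfl, Nat.mul_le_mul_right _ hX32, by omega,
    num_qX hwX1 ha5 (by omega) hqL, num_qs hKX hX32 hwX4 ha5 (by omega) hqL rfl, ?_, ?_, ?_⟩
  · intro k hk
    rw [Nat.le_div_iff_mul_le (by omega)]
    exact (card_values k S).trans hk
  · intro k hk
    rw [Nat.le_div_iff_mul_le hLpos]
    exact (card_values k _).trans hk
  · intro θ k hθ hk
    have h1 := num_nb (h := a / 2) hwX1 (by omega) (by omega) θ k hθ hk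
    have h2 : i * nb θ k ≤ X * nb θ k := Nat.mul_le_mul_right _ hiX
    omega

open scoped Classical in
lemma classA {g : Multiset ℕ → ℕ → ℕ} {a S n X w i h L q s P J : ℕ}
    (hN : Nums a S (n + 1) X w i h L q s P) (hg : DisG S g) (hsh : ShG g)
    (hwK : 4 * ((w + 1) * (a + 2) ^ 2) ≤ X ^ (n + 1)) (hJ : 2 * ((n + 1) * S) + 5 * S ≤ J)
    {Bad : Finset (Multiset ℕ × ℕ)} (y : Multiset ℕ × ℕ → ℕ)
    (hvals : ∀ p ∈ Bad, (p.1.sum ≤ w ∧ ∀ x ∈ p.1, S ≤ x) ∧ BadW a (a + i) J p)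
    (hy : ∀ p ∈ Bad, y p ∈ p.1 ∧ a < y p) :
    8 * ∑ p ∈ Bad.filter (fun p => Multiset.card p.1 + p.2 + (n + 1) + 1 ≤ a), g p.1 p.2 ≤
      ∑ p ∈ (KT w S ×ˢ Finset.range (a + 2)).filter (GoodW a (a + i)), g p.1 p.2 := by
  obtain ⟨hi, hiX, hXS, hS4, hK, hX32, ha200, hKS, hh, hL, hsS, hP1, hq1, hsP, hXP1, hXP2, hqX,
    hqs, hcP, hcq, hE⟩ := hN
  have hqi : q * i ≤ q * X := Nat.mul_le_mul_left _ hiX
  have hhq : h ≤ 2 * (h - q * i) := by omega
  have e1 : 2 * (n + 1) * S = 2 * ((n + 1) * S) := by ring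
  have hone := one_class
    (B := Bad.filter (fun p => Multiset.card p.1 + p.2 + (n + 1) + 1 ≤ a))
    (n := n) (S := S) (s := s) (h := h) (i := i) (P := P) (L := L) (L' := S) (q := q) (q' := P)
    (Dm := a + 2) (w := w) (a := a) (y := y)
    (D := fun p => a + 1 - (Multiset.card p.1 + p.2 + (n + 1))) hg hsh
    (le_trans (Nat.mul_le_mul_left _ (by omega)) hsS) (by omega) hi (by omega) (by omega)
    (by omega) hcP hcq hcP hE (by
      intro p hp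
      rw [Finset.mem_filter] at hp
      obtain ⟨hp, hpA⟩ := hp
      obtain ⟨⟨b1, b2⟩, b3, b4, b5, b6, b7⟩ := hvals p hp
      obtain ⟨b8, b9⟩ := hy p hp
      exact ⟨b1, b2, b4, b6, by omega, Or.inr ⟨by omega, by omega⟩, b8, b9, by omega,
        by omega, by omega, by omega⟩)
  refine cancel_sum hone ?_ (Nat.mul_pos (by omega) (Nat.mul_pos (Nat.pow_pos (by omega))
    (Nat.mul_pos (by omega) (Nat.mul_pos (by omega) (by omega)))))
  have h1 : h * (X * P) ^ (n + 1) ≤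
      2 * ((h - q * i) * ((s - P) ^ n * (s - (4 * P + n + 1)))) := by
    calc h * (X * P) ^ (n + 1) = h * ((X * P) ^ n * (X * P)) := by rw [pow_succ]
      _ ≤ (2 * (h - q * i)) * ((s - P) ^ n * (s - (4 * P + n + 1))) :=
          Nat.mul_le_mul hhq (Nat.mul_le_mul (Nat.pow_le_pow_left (by omega) n) (by omega))
      _ = _ := by ring
  have h3 : 16 * ((a + 2) * i) ≤ X ^ (n + 1) := by
    refine le_trans ?_ hwK
    have h4 : 4 * i ≤ (w + 1) * (a + 2) := by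
      have : 1 * (a + 2) ≤ (w + 1) * (a + 2) := Nat.mul_le_mul_right _ (by omega)
      omega
    calc 16 * ((a + 2) * i) = 4 * ((a + 2) * (4 * i)) := by ring
      _ ≤ 4 * ((a + 2) * ((w + 1) * (a + 2))) :=
          Nat.mul_le_mul_left _ (Nat.mul_le_mul_left _ h4)
      _ = 4 * ((w + 1) * (a + 2) ^ 2) := by ring
  have h2 : 16 * (h * (P ^ n * (P * ((a + 2) * i)))) ≤ h * (X * P) ^ (n + 1) := by
    calc 16 * (h * (P ^ n * (P * ((a + 2) * i)))) =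
          h * (P ^ (n + 1) * (16 * ((a + 2) * i))) := by
          rw [pow_succ]
          ring
      _ ≤ h * (P ^ (n + 1) * X ^ (n + 1)) := Nat.mul_le_mul_left _ (Nat.mul_le_mul_left _ h3)
      _ = h * (X * P) ^ (n + 1) := by rw [mul_pow, mul_comm (P ^ (n + 1))]
  omega

open scoped Classical in
lemma classB {g : Multiset ℕ → ℕ → ℕ} {a S n K X w i h L q s P J : ℕ}
    (hN : Nums a S K X w i h L q s P) (hg : DisG S g) (hsh : ShG g) (hn : n ≤ K)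
    (hJ : 2 * (K * S) + 5 * S ≤ J) (hJa : J ≤ a)
    {Bad : Finset (Multiset ℕ × ℕ)} (y : Multiset ℕ × ℕ → ℕ)
    (hvals : ∀ p ∈ Bad, (p.1.sum ≤ w ∧ ∀ x ∈ p.1, S ≤ x) ∧ BadW a (a + i) J p)
    (hy : ∀ p ∈ Bad, y p ∈ p.1 ∧ a < y p) :
    (8 * (K + 2)) *
      ∑ p ∈ (Bad.filter (fun p => ¬ (Multiset.card p.1 + p.2 + K + 1 ≤ a))).filter
        (fun p => a - (Multiset.card p.1 + p.2) = n), g p.1 p.2 ≤
      ∑ p ∈ (KT w S ×ˢ Finset.range (a + 2)).filter (GoodW a (a + i)), g p.1 p.2 := by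
  obtain ⟨hi, hiX, hXS, hS4, hK, hX32, ha200, hKS, hh, hL, hsS, hP1, hq1, hsP, hXP1, hXP2, hqX,
    hqs, hcP, hcq, hE⟩ := hN
  have hqi : q * i ≤ q * X := Nat.mul_le_mul_left _ hiX
  have hhq : h ≤ 2 * (h - q * i) := by omega
  have hnS : (n + 1) * S ≤ (K + 1) * S := Nat.mul_le_mul_right _ (by omega)
  have e1 : (K + 1) * S = K * S + S := by ring
  have e2 : 2 * (n + 1) * S = 2 * ((n + 1) * S) := by ring
  have hone := one_class
    (B := (Bad.filter (fun p => ¬ (Multiset.card p.1 + p.2 + K + 1 ≤ a))).filter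
      (fun p => a - (Multiset.card p.1 + p.2) = n))
    (n := n) (S := S) (s := s) (h := h) (i := i) (P := P) (L := L) (L' := L) (q := q) (q' := q)
    (Dm := 1) (w := w) (a := a) (y := y) (D := fun _ => 0) hg hsh
    (le_trans (Nat.mul_le_mul_left _ (by omega)) hsS) (by omega) hi (by omega) (by omega)
    (by omega) hcP hcq hcq hE (by
      intro p hp
      rw [Finset.mem_filter, Finset.mem_filter] at hp
      obtain ⟨⟨hp, _⟩, hpA⟩ := hp
      obtain ⟨⟨b1, b2⟩, b3, b4, b5, b6, b7⟩ := hvals p hp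
      obtain ⟨b8, b9⟩ := hy p hp
      exact ⟨b1, b2, b4, b6, by omega, Or.inl rfl, b8, b9, by omega, by omega, by omega,
        by omega⟩)
  refine cancel_sum hone ?_ (Nat.mul_pos (by omega) (Nat.mul_pos (Nat.pow_pos (by omega))
    (Nat.mul_pos (by omega) (Nat.mul_pos (by omega) (by omega)))))
  have hXn : 1 ≤ X ^ n := Nat.one_le_pow _ _ (by omega)
  have h1 : h * (P ^ n * s) ≤
      4 * ((h - q * i) * ((s - P) ^ n * (s - (4 * P + n + 1)))) := by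
    calc h * (P ^ n * s)
        ≤ (2 * (h - q * i)) * ((s - P) ^ n * (2 * (s - (4 * P + n + 1)))) :=
          Nat.mul_le_mul hhq (Nat.mul_le_mul (Nat.pow_le_pow_left (by omega) n) (by omega))
      _ = _ := by ring
  have h2 : 4 * ((8 * (K + 2)) * (h * (P ^ n * (q * (1 * i))))) ≤ h * (P ^ n * s) := by
    calc 4 * ((8 * (K + 2)) * (h * (P ^ n * (q * (1 * i)))))
        = h * (P ^ n * (32 * ((K + 2) * (q * i)))) := by ring
      _ ≤ h * (P ^ n * s) := by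
          refine Nat.mul_le_mul_left _ (Nat.mul_le_mul_left _ (le_trans ?_ hqs))
          exact Nat.mul_le_mul_left _ (Nat.mul_le_mul_left _ hqi)
  omega

/-- **(X7)** -/
theorem flowX : FlowX := by
  classical
  intro g a b J S K X w hg hsh hK hS4 hKX hX32 hXS hwS hwK hJ hJa hwX4 hwX3 hKS hab hbX
  obtain ⟨i, rfl⟩ : ∃ i, b = a + i := ⟨b - a, by omega⟩
  obtain ⟨Bad, hBad⟩ : ∃ Bad, Bad =
      (KT w S ×ˢ Finset.range (a + 2)).filter (BadW a (a + i) J) := ⟨_, rfl⟩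
  rw [← hBad]
  have hvals : ∀ p ∈ Bad, (p.1.sum ≤ w ∧ ∀ x ∈ p.1, S ≤ x) ∧ BadW a (a + i) J p := by
    intro p hp
    rw [hBad, Finset.mem_filter, Finset.mem_product, mem_KT (by omega)] at hp
    exact ⟨hp.1.1, hp.2⟩
  by_cases hTe : Bad = ∅
  · rw [hTe, Finset.sum_empty]
    omega
  obtain ⟨p₁, hp₁⟩ := Finset.nonempty_iff_ne_empty.2 hTe
  have hwa : a < w := by
    obtain ⟨x, hx, hxa⟩ := (hvals p₁ hp₁).2.1
    have h1 := Multiset.le_sum_of_mem hx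
    have h2 := (hvals p₁ hp₁).1.1
    omega
  have hN := nums (i := i) (by omega) (by omega) hK hS4 hKX hX32 hXS hwS hwX4 hwX3 hKS hwa
  -- the letter
  have hlet : ∀ p : Multiset ℕ × ℕ, ∃ y : ℕ, p ∈ Bad → y ∈ p.1 ∧ a < y := by
    intro p
    by_cases hp : p ∈ Bad
    · obtain ⟨y, h1, h2⟩ := (hvals p hp).2.1
      exact ⟨y, fun _ => ⟨h1, h2⟩⟩
    · exact ⟨0, fun h => absurd h hp⟩
  choose y hy using hlet
  have hJ5 : 2 * (K * S) + 5 * S ≤ J := by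
    have : (2 * K + 5) * S = 2 * (K * S) + 5 * S := by ring
    omega
  obtain ⟨G, hG⟩ : ∃ G, G =
      ∑ p ∈ (KT w S ×ˢ Finset.range (a + 2)).filter (GoodW a (a + i)), g p.1 p.2 := ⟨_, rfl⟩
  have hA : 8 * ∑ p ∈ Bad.filter (fun p => Multiset.card p.1 + p.2 + K + 1 ≤ a), g p.1 p.2 ≤
      G := by
    obtain ⟨n, rfl⟩ : ∃ n, K = n + 1 := ⟨K - 1, by omega⟩
    rw [hG]
    exact classA hN hg hsh hwK hJ5 y hvals hy
  have hB : ∀ n ∈ Finset.range (K + 1), (8 * (K + 2)) *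
      ∑ p ∈ (Bad.filter (fun p => ¬ (Multiset.card p.1 + p.2 + K + 1 ≤ a))).filter
        (fun p => a - (Multiset.card p.1 + p.2) = n), g p.1 p.2 ≤ G := by
    intro n hn
    rw [Finset.mem_range] at hn
    rw [hG]
    exact classB hN hg hsh (by omega) hJ5 (by omega) y hvals hy
  rw [← hG]
  -- the sum
  have hsplit := Finset.sum_filter_add_sum_filter_not Bad
    (fun p => Multiset.card p.1 + p.2 + K + 1 ≤ a) (fun p => g p.1 p.2)
  have hfib := Finset.sum_fiberwise_of_maps_to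
    (s := Bad.filter (fun p => ¬ (Multiset.card p.1 + p.2 + K + 1 ≤ a)))
    (t := Finset.range (K + 1)) (g := fun p => a - (Multiset.card p.1 + p.2))
    (by
      intro p hp
      rw [Finset.mem_filter] at hp
      have := (hvals p hp.1).2.2.2.2.2
      rw [Finset.mem_range]
      omega) (fun p => g p.1 p.2)
  obtain ⟨R, hR⟩ : ∃ R, R =
      ∑ p ∈ Bad.filter (fun p => ¬ (Multiset.card p.1 + p.2 + K + 1 ≤ a)), g p.1 p.2 :=
    ⟨_, rfl⟩
  have hsum : (8 * (K + 2)) * R ≤ (K + 1) * G := by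
    rw [hR, ← hfib, Finset.mul_sum]
    calc _ ≤ ∑ _n ∈ Finset.range (K + 1), G := Finset.sum_le_sum hB
      _ = (K + 1) * G := by rw [Finset.sum_const, smul_eq_mul, Finset.card_range]
  have hsum' : 8 * R ≤ G := by
    have h1 : (K + 2) * (8 * R) ≤ (K + 2) * G := by
      calc (K + 2) * (8 * R) = (8 * (K + 2)) * R := by ring
        _ ≤ (K + 1) * G := hsum
        _ ≤ (K + 2) * G := Nat.mul_le_mul_right _ (by omega)
    exact Nat.le_of_mul_le_mul_left h1 (by omega)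
  rw [← hsplit, ← hR]
  omega

end Vale.Agent.P181.DX
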