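import Vale.Agent.P181.DX.Tools

set_option autoImplicit false

/-!
# P181, DX (X7): one class of sources
-/

namespace Vale.Agent.P181.DX

open Vale.Agent.P181.DG Vale.Agent.P181.DU.S317
open Vale.Agent.P181.SZC1 (double_count card_values blk blk_ge blk_lt blk_disj card_blk lets
  mem_lets sum_lets card_lets nodup_lets card_not_mem)
open Vale.Agent.P181.DG7 (mem_KT)

/-- the target of a choice -/
def tgt {n : ℕ} (y D : Multiset ℕ × ℕ → ℕ) (i : ℕ) (p : Multiset ℕ × ℕ)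
    (c : Σ _ : ℕ, Σ _ : Fin n → ℕ, ℕ) : Multiset ℕ × ℕ :=
  ((c.2.2 + i * nb c.1 (p.1.erase (y p))) ::ₘ
    ((y p - D p - (c.2.2 + ∑ q, c.2.1 q)) ::ₘ
      (Finset.univ.val.map c.2.1 + (p.1.erase (y p)).map (phi c.1 i))), p.2 + D p)

lemma codes_lt {n S s h i v : ℕ} {k r : Multiset ℕ} {c : Σ _ : ℕ, Σ _ : Fin n → ℕ, ℕ}
    (hs : s * (n + 1) ≤ S) (hc : c ∈ ch n S s h i k r v) :
    S ≤ c.2.2 ∧ c.2.2 < 2 * S ∧ (∀ q, S ≤ c.2.1 q ∧ c.2.1 q < 2 * S) ∧
      c.2.2 + ∑ q, c.2.1 q ≤ 2 * (n + 1) * S := by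
  rw [mem_ch] at hc
  obtain ⟨_, _, h1, h2, _⟩ := hc
  have h3 : ∀ q, S ≤ c.2.1 q ∧ c.2.1 q < 2 * S := fun q =>
    ⟨blk_ge (h1 q).1, blk_lt (K := n + 1) (h1 q).1 (by omega) hs⟩
  have h4 := blk_lt (K := n + 1) h2 (by omega) hs
  refine ⟨blk_ge h2, h4, h3, ?_⟩
  have h5 : ∑ q, c.2.1 q ≤ n * (2 * S) := by
    calc ∑ q, c.2.1 q ≤ ∑ _q : Fin n, 2 * S := Finset.sum_le_sum fun q _ => (h3 q).2.le
      _ = n * (2 * S) := by simp
  have h6 : 2 * (n + 1) * S = 2 * S + n * (2 * S) := by ring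
  omega

/-- the two operations -/
lemma g_le {g : Multiset ℕ → ℕ → ℕ} {n S s h i y D t : ℕ} {k : Multiset ℕ} (hg : DisG S g)
    (hsh : ShG g) (hs : s * (n + 1) ≤ S) (hS : 1 ≤ S) (hky : y ∈ k) (hk : ∀ x ∈ k, S ≤ x)
    (ht : 1 ≤ t) (hD : D = 0 ∨ 2 ≤ D ∧ t ≤ y - D) (hv : 2 * (n + 1) * S + 3 * S ≤ y - D)
    {c : Σ _ : ℕ, Σ _ : Fin n → ℕ, ℕ} (hc : c ∈ ch n S s h i k (k.erase y) (y - D))
    (hE : 2 * S + i * nb c.1 (k.erase y) + i ≤ h) :
    g k t ≤ g ((c.2.2 + i * nb c.1 (k.erase y)) ::ₘ ((y - D - (c.2.2 + ∑ q, c.2.1 q)) ::ₘ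
      (Finset.univ.val.map c.2.1 + (k.erase y).map (phi c.1 i)))) (t + D) := by
  have hcs := codes_lt hs hc
  rw [mem_ch] at hc
  obtain ⟨θ, f, u⟩ := c
  simp only at hc hcs hE ⊢
  obtain ⟨⟨hθ1, hθ2⟩, hgap, hf, hu, hGC⟩ := hc
  obtain ⟨g1, g2, g3, g4, g5, g6⟩ := hGC
  obtain ⟨hu1, hu2, hf1, hsum⟩ := hcs
  obtain ⟨y', hy'⟩ : ∃ y', y' = y - D - (u + ∑ q, f q) := ⟨_, rfl⟩
  obtain ⟨E, hEE⟩ : ∃ E, E = i * nb θ (k.erase y) := ⟨_, rfl⟩
  obtain ⟨rho, hrho⟩ : ∃ rho, rho = k.erase y := ⟨_, rfl⟩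
  rw [← hEE] at g4 g5 g6 hE
  rw [← hy'] at g2 g3 g6
  rw [← hy', ← hEE, ← hrho]
  have hky' : y ::ₘ rho = k := by rw [hrho]; exact Multiset.cons_erase hky
  have hrk : ∀ x ∈ rho, x ∈ k := fun x hx => by
    rw [← hky']
    exact Multiset.mem_cons_of_mem hx
  have hnb : nb θ rho = Multiset.card (rho.filter (θ < ·)) := rfl
  -- dissolve
  have h1 := hg rho (y' ::ₘ lets f u) y D t ht (by omega) ?_ ?_ ?_ ?_
  · rw [hky'] at h1
    refine h1.trans ?_
    -- shift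
    have h2 := hsh (rho.filter (θ < ·)) (y' ::ₘ (Finset.univ.val.map f +
      rho.filter (fun x => ¬ θ < x))) u i (t + D) (by omega) ?_ ?_
    · have e1 : u ::ₘ (rho.filter (θ < ·) + y' ::ₘ (Finset.univ.val.map f +
          rho.filter (fun x => ¬ θ < x))) = y' ::ₘ lets f u + rho := by
        conv_rhs => rw [← Multiset.filter_add_not (θ < ·) rho]
        unfold lets
        simp only [← Multiset.singleton_add]
        abel
      have e2 : (u + i * Multiset.card (rho.filter (θ < ·))) ::ₘ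
          ((rho.filter (θ < ·)).map (· - i) + y' ::ₘ (Finset.univ.val.map f +
          rho.filter (fun x => ¬ θ < x))) =
          (u + E) ::ₘ (y' ::ₘ (Finset.univ.val.map f + rho.map (phi θ i))) := by
        rw [split_phi, hEE, ← hrho, hnb]
        simp only [← Multiset.singleton_add]
        abel
      rw [e1, e2] at h2
      exact h2
    · intro x hx
      rw [Multiset.mem_filter] at hx
      rw [← hnb, hrho, ← hEE]
      refine ⟨by omega, ?_, by omega⟩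
      rw [Multiset.mem_cons, Multiset.mem_add, Multiset.mem_map, Multiset.mem_filter]
      rintro (h3 | ⟨q, -, h3⟩ | ⟨h3, h4⟩)
      · apply g3
        rw [Multiset.mem_map]
        exact ⟨x, hrk x hx.1, h3⟩
      · have := (hf1 q).2
        omega
      · have h5 := hgap (x - i) (hrk _ (by rw [hrho]; exact h3))
        omega
    · rw [← hnb, hrho, ← hEE]
      rw [Multiset.mem_cons, Multiset.mem_add, Multiset.mem_map, Multiset.mem_filter]
      rintro (h3 | ⟨q, -, h3⟩ | ⟨h3, h4⟩)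
      · exact g6 h3.symm
      · exact g5 q h3
      · exact g4 (hrk _ (by rw [hrho]; exact h3))
  · rw [Multiset.nodup_cons]
    refine ⟨fun hm => ?_, nodup_lets (fun q => (hf q).1) hu⟩
    rcases mem_lets.1 hm with h3 | ⟨q, h3⟩
    · omega
    · have := (hf1 q).2
      omega
  · intro x hx
    rw [Multiset.mem_cons] at hx
    rcases hx with rfl | hx
    · refine ⟨by omega, fun h3 => g2 (hrk _ h3), by omega⟩
    · rcases mem_lets.1 hx with rfl | ⟨q, rfl⟩
      · exact ⟨hu1, fun h3 => g1 (hrk _ h3), by omega⟩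
      · have := hf1 q
        exact ⟨this.1, fun h3 => (hf q).2 (hrk _ h3), by omega⟩
  · rw [Multiset.sum_cons, sum_lets]
    omega
  · rcases hD with h3 | ⟨h3, h4⟩
    · exact Or.inl h3
    · refine Or.inr ⟨h3, ?_⟩
      rw [Multiset.sum_cons, sum_lets]
      omega

open scoped Classical in
/-- the fibres -/
lemma fibre_le {B : Finset (Multiset ℕ × ℕ)} {n S s h i P L q Dm w a : ℕ}
    {y D : Multiset ℕ × ℕ → ℕ} (hs : s * (n + 1) ≤ S)
    (hB : ∀ p ∈ B, p.1.sum ≤ w ∧ y p ∈ p.1 ∧ a < y p ∧ y p ≤ a + i ∧ D p ≤ y p ∧ D p < Dm ∧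
      2 * (n + 1) * S + 3 * S ≤ y p - D p ∧ L + 2 * (n + 1) * S ≤ y p - D p)
    (hE : ∀ (θ : ℕ) (k : Multiset ℕ), h < θ → k.sum ≤ w → 2 * S + i * nb θ k + i ≤ h)
    (p' : Multiset ℕ × ℕ) (hP : (p'.1.toFinset.filter (S ≤ ·)).card ≤ P)
    (hq : (p'.1.toFinset.filter (L ≤ ·)).card ≤ q) :
    ((B.sigma fun p => ch n S s h i p.1 (p.1.erase (y p)) (y p - D p)).filter
      fun p => tgt y D i p.1 p.2 = p').card ≤ h * (P ^ n * (q * (Dm * i))) := by
  have hc1 : ∀ j, ((blk S s j).filter (· ∈ p'.1)).card ≤ P := by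
    intro j
    refine (Finset.card_le_card ?_).trans hP
    intro u hu
    rw [Finset.mem_filter] at hu ⊢
    exact ⟨Multiset.mem_toFinset.2 hu.2, blk_ge hu.1⟩
  have hU : (Finset.Ioc h (2 * h) ×ˢ
      ((Fintype.piFinset fun j : Fin n => (blk S s (j + 1)).filter (· ∈ p'.1)) ×ˢ
      ((p'.1.toFinset.filter (L ≤ ·)) ×ˢ (Finset.range Dm ×ˢ Finset.Ioc a (a + i))))).card ≤
      h * (P ^ n * (q * (Dm * i))) := by
    rw [Finset.card_product, Finset.card_product, Finset.card_product, Finset.card_product,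
      Finset.card_range, Nat.card_Ioc, Nat.card_Ioc]
    refine Nat.mul_le_mul (by omega) (Nat.mul_le_mul ?_ (Nat.mul_le_mul hq
      (Nat.mul_le_mul le_rfl (by omega))))
    rw [Fintype.card_piFinset]
    calc ∏ j : Fin n, ((blk S s (j + 1)).filter (· ∈ p'.1)).card ≤ ∏ _j : Fin n, P :=
          Finset.prod_le_prod' fun j _ => hc1 _
      _ = P ^ n := by simp
  refine (Finset.card_le_card_of_injOn
    (fun p => (p.2.1, (p.2.2.1, (y p.1 - D p.1 - (p.2.2.2 + ∑ j, p.2.2.1 j),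
      (D p.1, y p.1))))) ?_ ?_).trans hU
  · intro p hp
    rw [Finset.mem_coe, Finset.mem_filter, Finset.mem_sigma] at hp
    obtain ⟨⟨hp1, hp2⟩, hp3⟩ := hp
    have hcs := codes_lt hs hp2
    have hb := hB _ hp1
    rw [mem_ch] at hp2
    have h31 : (tgt y D i p.1 p.2).1 = p'.1 := by rw [hp3]
    rw [Finset.mem_coe, Finset.mem_product, Finset.mem_product, Finset.mem_product,
      Finset.mem_product, Fintype.mem_piFinset]
    refine ⟨?_, fun j => ?_, ?_, ?_, ?_⟩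
    · rw [Finset.mem_Ioc]
      exact hp2.1
    · rw [Finset.mem_filter]
      refine ⟨(hp2.2.2.1 j).1, ?_⟩
      rw [← h31]
      refine Multiset.mem_cons_of_mem (Multiset.mem_cons_of_mem (Multiset.mem_add.2 (Or.inl ?_)))
      exact Multiset.mem_map_of_mem _ (Finset.mem_univ_val j)
    · rw [Finset.mem_filter, Multiset.mem_toFinset]
      refine ⟨?_, ?_⟩
      · rw [← h31]
        exact Multiset.mem_cons_of_mem (Multiset.mem_cons_self _ _)
      · show L ≤ y p.1 - D p.1 - (p.2.2.2 + ∑ j, p.2.2.1 j)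
        omega
    · rw [Finset.mem_range]
      exact hb.2.2.2.2.2.1
    · rw [Finset.mem_Ioc]
      exact ⟨hb.2.2.1, hb.2.2.2.1⟩
  · intro p hp p₂ hp₂ hpp
    rw [Finset.mem_coe, Finset.mem_filter, Finset.mem_sigma] at hp hp₂
    obtain ⟨⟨hp1, hp2⟩, hp3⟩ := hp
    obtain ⟨⟨hp1', hp2'⟩, hp3'⟩ := hp₂
    have hcs := codes_lt hs hp2
    have hcs' := codes_lt hs hp2'
    have hb := hB _ hp1
    have hb' := hB _ hp1'
    rw [mem_ch] at hp2 hp2'
    obtain ⟨⟨k, t⟩, θ, f, u⟩ := p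
    obtain ⟨⟨k₂, t₂⟩, θ₂, f₂, u₂⟩ := p₂
    simp only [Prod.mk.injEq] at hpp
    obtain ⟨rfl, rfl, hy', hDD, hyy⟩ := hpp
    simp only at hp1 hp1' hp2 hp2' hp3 hp3' hcs hcs' hb hb'
    obtain ⟨rho, hrho⟩ : ∃ rho, rho = k.erase (y (k, t)) := ⟨_, rfl⟩
    obtain ⟨rho₂, hrho₂⟩ : ∃ rho₂, rho₂ = k₂.erase (y (k₂, t₂)) := ⟨_, rfl⟩
    have hk : y (k, t) ::ₘ rho = k := by rw [hrho]; exact Multiset.cons_erase hb.2.1
    have hk₂ : y (k₂, t₂) ::ₘ rho₂ = k₂ := by rw [hrho₂]; exact Multiset.cons_erase hb'.2.1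
    have hsr : rho.sum ≤ w := by
      have := hb.1
      rw [← hk, Multiset.sum_cons] at this
      omega
    have hsr₂ : rho₂.sum ≤ w := by
      have := hb'.1
      rw [← hk₂, Multiset.sum_cons] at this
      omega
    have hgap : Gap θ i rho := fun x hx => hp2.2.1 x (by
      rw [← hk]
      exact Multiset.mem_cons_of_mem hx)
    have hgap₂ : Gap θ i rho₂ := fun x hx => hp2'.2.1 x (by
      rw [← hk₂]
      exact Multiset.mem_cons_of_mem hx)
    have hE1 := hE θ rho hp2.1.1 hsr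
    have hE2 := hE θ rho₂ hp2.1.1 hsr₂
    have hθ := hp2.1.1
    have h2 := hp3.trans hp3'.symm
    unfold tgt at h2
    simp only [Prod.mk.injEq] at h2
    obtain ⟨h2, h4⟩ := h2
    have huu : u = u₂ := by omega
    rw [← hrho, ← hrho₂, ← hy'] at h2
    have hnn : nb θ rho = nb θ rho₂ := by
      have h5 := congrArg (nb (θ - i)) h2
      have hn1 : ¬ θ - i < u + i * nb θ rho := by omega
      have hn2 : ¬ θ - i < u₂ + i * nb θ rho₂ := by omega
      simp only [nb_cons, nb_add] at h5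
      rw [nb_phi (by omega) hgap, nb_phi (by omega) hgap₂, if_neg hn1, if_neg hn2] at h5
      omega
    rw [huu, hnn] at h2
    have h6 := (Multiset.cons_inj_right _).1 ((Multiset.cons_inj_right _).1 h2)
    have h7 : rho.map (phi θ i) = rho₂.map (phi θ i) := add_left_cancel h6
    have h8 : rho = rho₂ := by
      rw [← map_psi (by omega) hgap, ← map_psi (by omega) hgap₂, h7]
    have h9 : k = k₂ := by rw [← hk, ← hk₂, h8, hyy]
    have h10 : t = t₂ := by omega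
    subst h9
    subst h10
    subst huu
    rfl

open scoped Classical in
/-- one class of sources -/
theorem one_class {g : Multiset ℕ → ℕ → ℕ} {B : Finset (Multiset ℕ × ℕ)}
    {n S s h i P L L' q q' Dm w a : ℕ} {y D : Multiset ℕ × ℕ → ℕ} (hg : DisG S g)
    (hsh : ShG g) (hs : s * (n + 1) ≤ S) (hS : 1 ≤ S) (hi : 1 ≤ i) (hiS : i ≤ S)
    (hha : 2 * h ≤ a)
    (hL : L + i ≤ h + 1)
    (hcP : ∀ k : Multiset ℕ, k.sum ≤ w → (k.toFinset.filter (S ≤ ·)).card ≤ P)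
    (hcq : ∀ k : Multiset ℕ, k.sum ≤ w → (k.toFinset.filter (L ≤ ·)).card ≤ q)
    (hcq' : ∀ k : Multiset ℕ, k.sum ≤ w → (k.toFinset.filter (L' ≤ ·)).card ≤ q')
    (hE : ∀ (θ : ℕ) (k : Multiset ℕ), h < θ → k.sum ≤ w → 2 * S + i * nb θ k + i ≤ h)
    (hB : ∀ p ∈ B, p.1.sum ≤ w ∧ (∀ x ∈ p.1, S ≤ x) ∧ (∀ x ∈ p.1, x ≤ a + i) ∧ 1 ≤ p.2 ∧
      Multiset.card p.1 + p.2 + (n + 1) + D p = a + 1 ∧
      (D p = 0 ∨ 2 ≤ D p ∧ p.2 ≤ y p - D p) ∧ y p ∈ p.1 ∧ a < y p ∧ D p ≤ y p ∧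
      D p < Dm ∧ 2 * (n + 1) * S + 3 * S ≤ y p - D p ∧ L' + 2 * (n + 1) * S ≤ y p - D p) :
    ((h - q * i) * ((s - P) ^ n * (s - (4 * P + n + 1)))) * ∑ p ∈ B, g p.1 p.2 ≤
      (h * (P ^ n * (q' * (Dm * i)))) *
        ∑ p ∈ (KT w S ×ˢ Finset.range (a + 2)).filter (GoodW a (a + i)), g p.1 p.2 := by
  refine double_count B _ (fun p => ch n S s h i p.1 (p.1.erase (y p)) (y p - D p))
    (fun p c => tgt y D i p c) (fun p => g p.1 p.2) _ _ ?_ ?_ ?_ ?_
  · intro p hp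
    have hb := hB p hp
    exact card_ch (hcP _ hb.1) (hcq _ hb.1) hL hs hS hb.2.2.2.2.2.2.2.2.2.2.1
  · intro p hp c hc
    obtain ⟨b1, b2, b3, b4, b5, b6, b7, b8, b9, b10, b11, b12⟩ := hB p hp
    have hcs := codes_lt hs hc
    rw [mem_ch] at hc
    obtain ⟨⟨hθ1, hθ2⟩, hgap, hf, hu, -⟩ := hc
    obtain ⟨rho, hrho⟩ : ∃ rho, rho = p.1.erase (y p) := ⟨_, rfl⟩
    have hk : y p ::ₘ rho = p.1 := by rw [hrho]; exact Multiset.cons_erase b7
    have hrk : ∀ x ∈ rho, x ∈ p.1 := fun x hx => by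
      rw [← hk]
      exact Multiset.mem_cons_of_mem hx
    have hsr : y p + rho.sum = p.1.sum := by
      rw [← hk, Multiset.sum_cons]
    have hcr : Multiset.card rho + 1 = Multiset.card p.1 := by
      rw [← hk, Multiset.card_cons]
    have hE1 := hE c.1 rho hθ1 (by omega)
    have hsp := sum_phi (i := i) (θ := c.1) (by omega) rho
    have hFs : (Finset.univ.val.map c.2.1).sum = ∑ q, c.2.1 q := rfl
    rw [Finset.mem_filter, Finset.mem_product, mem_KT hS, Finset.mem_range]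
    unfold tgt GoodW
    simp only
    rw [← hrho]
    have hmem : ∀ x ∈ (c.2.2 + i * nb c.1 rho) ::ₘ ((y p - D p - (c.2.2 + ∑ q, c.2.1 q)) ::ₘ
        (Finset.univ.val.map c.2.1 + rho.map (phi c.1 i))), S ≤ x ∧ x ≤ a := by
      intro x hx
      rw [Multiset.mem_cons, Multiset.mem_cons, Multiset.mem_add, Multiset.mem_map,
        Multiset.mem_map] at hx
      have hya := b3 _ b7
      rcases hx with rfl | rfl | ⟨j, -, rfl⟩ | ⟨z, hz, rfl⟩
      · omega
      · omega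
      · have := hcs.2.2.1 j
        omega
      · have h1 := b2 z (hrk z hz)
        have h2 := b3 z (hrk z hz)
        unfold phi
        split_ifs with h3
        · omega
        · omega
    refine ⟨⟨⟨?_, fun x hx => (hmem x hx).1⟩, ?_⟩, fun x hx => (hmem x hx).2, ?_, ?_, ?_⟩
    · rw [Multiset.sum_cons, Multiset.sum_cons, Multiset.sum_add, hFs]
      omega
    · omega
    · rw [Multiset.card_cons, Multiset.card_cons, Multiset.card_add, Multiset.card_map,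
        Multiset.card_map, Finset.card_val, Finset.card_univ, Fintype.card_fin]
      omega
    · omega
    · rw [Multiset.card_cons, Multiset.card_cons, Multiset.card_add, Multiset.card_map,
        Multiset.card_map, Finset.card_val, Finset.card_univ, Fintype.card_fin]
      omega
  · intro p hp c hc
    obtain ⟨b1, b2, b3, b4, b5, b6, b7, b8, b9, b10, b11, b12⟩ := hB p hp
    have hθ := (mem_ch.1 hc).1.1
    exact g_le hg hsh hs hS b7 b2 b4 b6 b11 hc (hE _ _ hθ (by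
      have : y p + (p.1.erase (y p)).sum = p.1.sum := by
        conv_rhs => rw [← Multiset.cons_erase b7, Multiset.sum_cons]
      omega))
  · intro p' hp'
    rw [Finset.mem_filter, Finset.mem_product, mem_KT hS] at hp'
    refine fibre_le (a := a) hs (fun p hp => ?_) hE p' (hcP _ hp'.1.1.1) (hcq' _ hp'.1.1.1)
    obtain ⟨b1, b2, b3, b4, b5, b6, b7, b8, b9, b10, b11, b12⟩ := hB p hp
    exact ⟨b1, b7, b8, b3 _ b7, b9, b10, b11, b12⟩

end Vale.Agent.P181.DX
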