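import Vale.Agent.P181.DX.Defs
import Vale.Agent.P181.DG7.Flow

set_option autoImplicit false

/-!
# P181, DX (X7): tools for the flow
-/

namespace Vale.Agent.P181.DX

open Vale.Agent.P181.DG Vale.Agent.P181.DU.S317
open Vale.Agent.P181.SZC1 (double_count card_values blk blk_ge blk_lt blk_disj card_blk lets
  mem_lets sum_lets card_lets nodup_lets card_not_mem)
open Vale.Agent.P181.DG7 (mem_KT)

/-- the shift of the letters above `θ` -/
def phi (θ i x : ℕ) : ℕ := if θ < x then x - i else x

/-- its inverse -/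
def psi (θ i x : ℕ) : ℕ := if θ - i < x then x + i else x

/-- the number of letters above `θ` -/
def nb (θ : ℕ) (k : Multiset ℕ) : ℕ := Multiset.card (k.filter (θ < ·))

/-- no letter in `(θ - i, θ]` -/
def Gap (θ i : ℕ) (k : Multiset ℕ) : Prop := ∀ x ∈ k, x ≤ θ - i ∨ θ < x

lemma map_psi {θ i : ℕ} {k : Multiset ℕ} (hi : i ≤ θ) (hg : Gap θ i k) :
    (k.map (phi θ i)).map (psi θ i) = k := by
  rw [Multiset.map_map]
  conv_rhs => rw [← Multiset.map_id k]
  apply Multiset.map_congr rfl
  intro x hx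
  have h1 := hg x hx
  simp only [Function.comp, phi, psi, id]
  split_ifs <;> omega

lemma nb_phi {θ i : ℕ} {k : Multiset ℕ} (hi : i ≤ θ) (hg : Gap θ i k) :
    nb (θ - i) (k.map (phi θ i)) = nb θ k := by
  unfold nb
  rw [Multiset.filter_map, Multiset.card_map]
  congr 1
  apply Multiset.filter_congr
  intro x hx
  have h1 := hg x hx
  simp only [Function.comp, phi]
  split_ifs <;> omega

lemma split_phi (θ i : ℕ) (k : Multiset ℕ) :
    k.map (phi θ i) = (k.filter (θ < ·)).map (· - i) + k.filter (fun x => ¬ θ < x) := by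
  conv_lhs => rw [← Multiset.filter_add_not (θ < ·) k]
  rw [Multiset.map_add]
  congr 1
  · apply Multiset.map_congr rfl
    intro x hx
    rw [Multiset.mem_filter] at hx
    simp only [phi, if_pos hx.2]
  · conv_rhs => rw [← Multiset.map_id (k.filter (fun x => ¬ θ < x))]
    apply Multiset.map_congr rfl
    intro x hx
    rw [Multiset.mem_filter] at hx
    simp only [phi, if_neg hx.2, id]

lemma nb_cons (θ x : ℕ) (k : Multiset ℕ) :
    nb θ (x ::ₘ k) = nb θ k + if θ < x then 1 else 0 := by
  unfold nb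
  by_cases hx : θ < x
  · rw [Multiset.filter_cons_of_pos _ hx, Multiset.card_cons, if_pos hx]
  · rw [Multiset.filter_cons_of_neg _ hx, if_neg hx, add_zero]

lemma sum_phi {θ i : ℕ} (hi : i ≤ θ) (k : Multiset ℕ) :
    (k.map (phi θ i)).sum + i * nb θ k = k.sum := by
  induction k using Multiset.induction_on with
  | empty => simp [nb]
  | cons x k ih =>
    rw [Multiset.map_cons, Multiset.sum_cons, Multiset.sum_cons, nb_cons]
    by_cases hx : θ < x
    · rw [if_pos hx, phi, if_pos hx, mul_add]
      omega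
    · rw [if_neg hx, phi, if_neg hx, add_zero]
      omega

lemma nb_mul (θ : ℕ) (k : Multiset ℕ) : nb θ k * θ ≤ k.sum := by
  induction k using Multiset.induction_on with
  | empty => simp [nb]
  | cons x k ih =>
    rw [Multiset.sum_cons, nb_cons]
    by_cases hx : θ < x
    · rw [if_pos hx, add_mul]
      omega
    · rw [if_neg hx, add_zero]
      omega

lemma nb_add (θ : ℕ) (k l : Multiset ℕ) : nb θ (k + l) = nb θ k + nb θ l := by
  unfold nb
  rw [Multiset.filter_add, Multiset.card_add]

open scoped Classical in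
lemma card_theta {h i L q : ℕ} {k : Multiset ℕ} (hq : (k.toFinset.filter (L ≤ ·)).card ≤ q)
    (hL : L + i ≤ h + 1) :
    h - q * i ≤ ((Finset.Ioc h (2 * h)).filter fun θ => Gap θ i k).card := by
  have h1 : ((Finset.Ioc h (2 * h)).filter fun θ => ¬ Gap θ i k).card ≤ q * i := by
    have h2 : ((Finset.Ioc h (2 * h)).filter fun θ => ¬ Gap θ i k) ⊆
        (k.toFinset.filter (L ≤ ·)).biUnion fun x => Finset.Ico x (x + i) := by
      intro θ hθ
      rw [Finset.mem_filter, Finset.mem_Ioc] at hθ
      obtain ⟨⟨h3, h4⟩, h5⟩ := hθ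
      unfold Gap at h5
      push Not at h5
      obtain ⟨x, hx, h6, h7⟩ := h5
      rw [Finset.mem_biUnion]
      refine ⟨x, ?_, ?_⟩
      · rw [Finset.mem_filter, Multiset.mem_toFinset]
        exact ⟨hx, by omega⟩
      · rw [Finset.mem_Ico]
        omega
    refine (Finset.card_le_card h2).trans ((Finset.card_biUnion_le_card_mul _ _ i ?_).trans
      (Nat.mul_le_mul_right _ hq))
    intro x _
    rw [Nat.card_Ico]
    omega
  have h2 := Finset.card_filter_add_card_filter_not (s := Finset.Ioc h (2 * h))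
    (fun θ => Gap θ i k)
  rw [Nat.card_Ioc] at h2
  omega

/-- the conditions on the first code -/
def GoodC {n : ℕ} (i v E : ℕ) (k : Multiset ℕ) (f : Fin n → ℕ) (u : ℕ) : Prop :=
  u ∉ k ∧ v - (u + ∑ q, f q) ∉ k ∧ v - (u + ∑ q, f q) ∉ k.map (· - i) ∧ u + E ∉ k ∧
    (∀ q, f q ≠ u + E) ∧ v - (u + ∑ q, f q) ≠ u + E

open scoped Classical in
lemma card_u {n S s P i v E : ℕ} {k : Multiset ℕ} {f : Fin n → ℕ}
    (hP : (k.toFinset.filter (S ≤ ·)).card ≤ P) (hv : ∑ q, f q + 3 * S ≤ v) (hs : s ≤ S)
    (hS : 1 ≤ S) :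
    s - (4 * P + n + 1) ≤ ((blk S s 0).filter (GoodC i v E k f)).card := by
  obtain ⟨U, hU⟩ : ∃ U, U = blk S s 0 := ⟨_, rfl⟩
  have hu : ∀ u ∈ U, S ≤ u ∧ u < 2 * S := by
    intro u h
    rw [hU] at h
    exact ⟨blk_ge h, blk_lt (K := 1) h (by omega) (by omega)⟩
  have hcard : U.card = s := by rw [hU, card_blk]
  rw [← hU]
  obtain ⟨F, hF⟩ : ∃ F, F = ∑ q, f q := ⟨_, rfl⟩
  rw [← hF] at hv
  -- a general bound
  have gen : ∀ (V : Finset ℕ) (φ : ℕ → ℕ), (∀ u ∈ V, S ≤ φ u ∧ φ u ∈ k) →
      (∀ u ∈ V, ∀ u' ∈ V, φ u = φ u' → u = u') → V.card ≤ P := by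
    intro V φ h1 h2
    refine (Finset.card_le_card_of_injOn φ ?_ ?_).trans hP
    · intro u hu
      rw [Finset.mem_coe] at hu
      rw [Finset.mem_coe, Finset.mem_filter, Multiset.mem_toFinset]
      exact ⟨(h1 u hu).2, (h1 u hu).1⟩
    · intro u hu u' hu'
      rw [Finset.mem_coe] at hu hu'
      exact h2 u hu u' hu'
  have c1 : (U.filter (· ∈ k)).card ≤ P := by
    refine gen _ id (fun u h1 => ?_) fun u _ u' _ h => h
    rw [Finset.mem_filter] at h1
    exact ⟨(hu u h1.1).1, h1.2⟩
  have c2 : (U.filter fun u => v - (u + F) ∈ k).card ≤ P := by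
    refine gen _ (fun u => v - (u + F)) (fun u h1 => ?_) fun u h u' h' h2 => ?_
    · rw [Finset.mem_filter] at h1
      have := hu u h1.1
      refine ⟨?_, h1.2⟩
      omega
    · rw [Finset.mem_filter] at h h'
      have := hu u h.1
      have := hu u' h'.1
      omega
  have c3 : (U.filter fun u => v - (u + F) ∈ k.map (· - i)).card ≤ P := by
    refine gen _ (fun u => v - (u + F) + i) (fun u h1 => ?_) fun u h u' h' h2 => ?_
    · rw [Finset.mem_filter] at h1
      have h3 := hu u h1.1
      refine ⟨by omega, ?_⟩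
      have h2 := h1.2
      rw [Multiset.mem_map] at h2
      obtain ⟨x, hx, hx2⟩ := h2
      have : v - (u + F) + i = x := by omega
      rw [this]
      exact hx
    · rw [Finset.mem_filter] at h h'
      have := hu u h.1
      have := hu u' h'.1
      omega
  have c4 : (U.filter fun u => u + E ∈ k).card ≤ P := by
    refine gen _ (fun u => u + E) (fun u h1 => ?_) fun u h u' h' h2 => ?_
    · rw [Finset.mem_filter] at h1
      have := hu u h1.1
      refine ⟨?_, h1.2⟩
      omega
    · omega
  have c5 : (U.filter fun u => ∃ q, f q = u + E).card ≤ n := by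
    calc (U.filter fun u => ∃ q, f q = u + E).card ≤ (Finset.univ.image f).card := by
          refine Finset.card_le_card_of_injOn (fun u => u + E) ?_ ?_
          · intro u hu
            rw [Finset.mem_coe, Finset.mem_filter] at hu
            rw [Finset.mem_coe, Finset.mem_image]
            obtain ⟨q, hq⟩ := hu.2
            exact ⟨q, Finset.mem_univ _, hq⟩
          · intro u _ u' _ h
            simp only at h
            omega
      _ ≤ (Finset.univ : Finset (Fin n)).card := Finset.card_image_le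
      _ = n := by rw [Finset.card_univ, Fintype.card_fin]
  have c6 : (U.filter fun u => v - (u + F) = u + E).card ≤ 1 := by
    rw [Finset.card_le_one]
    intro u hu1 u' hu2
    rw [Finset.mem_filter] at hu1 hu2
    have h1 := hu u hu1.1
    have h2 := hu u' hu2.1
    have h3 := hu1.2
    have h4 := hu2.2
    omega
  have key : U ⊆ U.filter (GoodC i v E k f) ∪ (U.filter (· ∈ k) ∪
      ((U.filter fun u => v - (u + F) ∈ k) ∪ ((U.filter fun u => v - (u + F) ∈ k.map (· - i)) ∪
      ((U.filter fun u => u + E ∈ k) ∪ ((U.filter fun u => ∃ q, f q = u + E) ∪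
      (U.filter fun u => v - (u + F) = u + E)))))) := by
    intro u hu'
    simp only [Finset.mem_union, Finset.mem_filter, hu', true_and]
    by_contra hcon
    push Not at hcon
    obtain ⟨h0, h1, h2, h3, h4, h5, h6⟩ := hcon
    apply h0
    unfold GoodC
    rw [← hF]
    exact ⟨h1, h2, h3, h4, h5, h6⟩
  have l0 := Finset.card_le_card key
  have l1 := Finset.card_union_le (U.filter (GoodC i v E k f)) (U.filter (· ∈ k) ∪
      ((U.filter fun u => v - (u + F) ∈ k) ∪ ((U.filter fun u => v - (u + F) ∈ k.map (· - i)) ∪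
      ((U.filter fun u => u + E ∈ k) ∪ ((U.filter fun u => ∃ q, f q = u + E) ∪
      (U.filter fun u => v - (u + F) = u + E))))))
  have l2 := Finset.card_union_le (U.filter (· ∈ k))
      ((U.filter fun u => v - (u + F) ∈ k) ∪ ((U.filter fun u => v - (u + F) ∈ k.map (· - i)) ∪
      ((U.filter fun u => u + E ∈ k) ∪ ((U.filter fun u => ∃ q, f q = u + E) ∪
      (U.filter fun u => v - (u + F) = u + E)))))
  have l3 := Finset.card_union_le (U.filter fun u => v - (u + F) ∈ k)
      ((U.filter fun u => v - (u + F) ∈ k.map (· - i)) ∪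
      ((U.filter fun u => u + E ∈ k) ∪ ((U.filter fun u => ∃ q, f q = u + E) ∪
      (U.filter fun u => v - (u + F) = u + E))))
  have l4 := Finset.card_union_le (U.filter fun u => v - (u + F) ∈ k.map (· - i))
      ((U.filter fun u => u + E ∈ k) ∪ ((U.filter fun u => ∃ q, f q = u + E) ∪
      (U.filter fun u => v - (u + F) = u + E)))
  have l5 := Finset.card_union_le (U.filter fun u => u + E ∈ k)
      ((U.filter fun u => ∃ q, f q = u + E) ∪ (U.filter fun u => v - (u + F) = u + E))
  have l6 := Finset.card_union_le (U.filter fun u => ∃ q, f q = u + E)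
      (U.filter fun u => v - (u + F) = u + E)
  omega

/-- the choices -/
noncomputable def ch (n S s h i : ℕ) (k r : Multiset ℕ) (v : ℕ) :
    Finset (Σ _ : ℕ, Σ _ : Fin n → ℕ, ℕ) :=
  open scoped Classical in
  ((Finset.Ioc h (2 * h)).filter fun θ => Gap θ i k).sigma fun θ =>
    (Fintype.piFinset fun q : Fin n => (blk S s (q + 1)).filter (· ∉ k)).sigma fun f =>
      (blk S s 0).filter (GoodC i v (i * nb θ r) k f)

lemma mem_ch {n S s h i v : ℕ} {k r : Multiset ℕ} {c : Σ _ : ℕ, Σ _ : Fin n → ℕ, ℕ} :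
    c ∈ ch n S s h i k r v ↔ (h < c.1 ∧ c.1 ≤ 2 * h) ∧ Gap c.1 i k ∧
      (∀ q : Fin n, c.2.1 q ∈ blk S s (q + 1) ∧ c.2.1 q ∉ k) ∧ c.2.2 ∈ blk S s 0 ∧
      GoodC i v (i * nb c.1 r) k c.2.1 c.2.2 := by
  classical
  unfold ch
  simp only [Finset.mem_sigma, Fintype.mem_piFinset, Finset.mem_filter, Finset.mem_Ioc]
  tauto

/-- lower bound for the number of choices -/
lemma card_ch {n S s h i L P q v : ℕ} {k r : Multiset ℕ}
    (hP : (k.toFinset.filter (S ≤ ·)).card ≤ P) (hq : (k.toFinset.filter (L ≤ ·)).card ≤ q)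
    (hL : L + i ≤ h + 1) (hs : s * (n + 1) ≤ S) (hS : 1 ≤ S) (hv : 2 * (n + 1) * S + 3 * S ≤ v) :
    (h - q * i) * ((s - P) ^ n * (s - (4 * P + n + 1))) ≤ (ch n S s h i k r v).card := by
  classical
  unfold ch
  rw [Finset.card_sigma]
  have hsS : s ≤ S := le_trans (Nat.le_mul_of_pos_right s (by omega)) hs
  have hone : ∀ θ ∈ (Finset.Ioc h (2 * h)).filter fun θ => Gap θ i k,
      (s - P) ^ n * (s - (4 * P + n + 1)) ≤
      ((Fintype.piFinset fun q : Fin n => (blk S s (q + 1)).filter (· ∉ k)).sigma fun f =>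
      (blk S s 0).filter (GoodC i v (i * nb θ r) k f)).card := by
    intro θ _
    rw [Finset.card_sigma]
    have htwo : ∀ f ∈ Fintype.piFinset fun q : Fin n => (blk S s (q + 1)).filter (· ∉ k),
        s - (4 * P + n + 1) ≤ ((blk S s 0).filter (GoodC i v (i * nb θ r) k f)).card := by
      intro f hf
      rw [Fintype.mem_piFinset] at hf
      refine card_u hP ?_ hsS hS
      have h1 : ∑ q, f q ≤ n * (2 * S) := by
        calc ∑ q, f q ≤ ∑ _q : Fin n, 2 * S := by
              refine Finset.sum_le_sum fun q _ => ?_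
              have h1 := (Finset.mem_filter.1 (hf q)).1
              exact (blk_lt (K := n + 1) h1 (by omega) hs).le
          _ = n * (2 * S) := by simp
      have h2 : 2 * (n + 1) * S = 2 * S + n * (2 * S) := by ring
      omega
    calc (s - P) ^ n * (s - (4 * P + n + 1))
        ≤ (Fintype.piFinset fun q : Fin n => (blk S s (q + 1)).filter (· ∉ k)).card *
          (s - (4 * P + n + 1)) := by
          refine Nat.mul_le_mul_right _ ?_
          rw [Fintype.card_piFinset]
          calc (s - P) ^ n = ∏ _q : Fin n, (s - P) := by simp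
            _ ≤ ∏ q : Fin n, ((blk S s (q + 1)).filter (· ∉ k)).card := by
                refine Finset.prod_le_prod' fun q _ => ?_
                exact card_not_mem (S := S) (s := s) (q := q + 1) hP
      _ = ∑ _f ∈ Fintype.piFinset fun q : Fin n => (blk S s (q + 1)).filter (· ∉ k),
            (s - (4 * P + n + 1)) := by rw [Finset.sum_const, smul_eq_mul]
      _ ≤ _ := Finset.sum_le_sum htwo
  calc (h - q * i) * ((s - P) ^ n * (s - (4 * P + n + 1)))
      ≤ ((Finset.Ioc h (2 * h)).filter fun θ => Gap θ i k).card *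
        ((s - P) ^ n * (s - (4 * P + n + 1))) := Nat.mul_le_mul_right _ (card_theta hq hL)
    _ = ∑ _θ ∈ (Finset.Ioc h (2 * h)).filter fun θ => Gap θ i k,
        ((s - P) ^ n * (s - (4 * P + n + 1))) := by rw [Finset.sum_const, smul_eq_mul]
    _ ≤ _ := Finset.sum_le_sum hone

end Vale.Agent.P181.DX
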